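import Mathlib

/-!
P109, counting: finite unions of rational balls, their edges, and countably many densities.
-/

namespace Vale.Agent.P109

open MeasureTheory Filter Topology
open scoped symmDiff

variable {d : ℕ}

/-- A centre and a radius with rational entries. -/
abbrev RatBall (d : ℕ) := (Fin d → ℚ) × ℚ

/-- Real centre of a rational ball. -/
noncomputable def RatBall.center (p : RatBall d) : Fin d → ℝ := fun l => ((p.1 l : ℚ) : ℝ)

/-- The union of finitely many rational balls. -/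
noncomputable def ballUnion (s : Finset (RatBall d)) : Set (Fin d → ℝ) :=
  ⋃ p ∈ s, Metric.ball (RatBall.center p) (p.2 : ℝ)

/-- The points within `η` of the edge of one of the balls. -/
noncomputable def collar (s : Finset (RatBall d)) (η : ℝ) : Set (Fin d → ℝ) :=
  ⋃ p ∈ s, {y | |‖y - RatBall.center p‖ - (p.2 : ℝ)| ≤ η}

lemma measurableSet_ballUnion (s : Finset (RatBall d)) : MeasurableSet (ballUnion s) :=
  Finset.measurableSet_biUnion s fun _ _ => measurableSet_ball

lemma measurableSet_collar (s : Finset (RatBall d)) (η : ℝ) : MeasurableSet (collar s η) :=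
  Finset.measurableSet_biUnion s fun _ _ =>
    (isClosed_le (by fun_prop) continuous_const).measurableSet

lemma collar_mono (s : Finset (RatBall d)) {η η' : ℝ} (h : η ≤ η') :
    collar s η ⊆ collar s η' :=
  Set.iUnion₂_mono fun _ _ _ hy => le_trans hy h

/-- Away from the edges, nearby points agree. -/
lemma mem_ballUnion_iff_of_close {s : Finset (RatBall d)} {η : ℝ} {y v : Fin d → ℝ}
    (hy : y ∉ collar s η) (hv : ‖y - v‖ ≤ η) : y ∈ ballUnion s ↔ v ∈ ballUnion s := by
  simp only [ballUnion, Set.mem_iUnion, Metric.mem_ball, dist_eq_norm, exists_prop]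
  refine exists_congr fun p => and_congr_right fun hp => ?_
  simp only [collar, Set.mem_iUnion, Set.mem_ofPred_eq, exists_prop, not_exists, not_and,
    not_le] at hy
  have h1 := hy p hp
  have h2 : |‖y - RatBall.center p‖ - ‖v - RatBall.center p‖| ≤ η := by
    refine (abs_norm_sub_norm_le _ _).trans ?_
    rwa [sub_sub_sub_cancel_right]
  obtain ⟨h3, h4⟩ := abs_le.1 h2
  constructor <;> intro h
  · rw [abs_of_neg (by linarith)] at h1
    linarith
  · by_contra h'
    rw [abs_of_nonneg (by linarith)] at h1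
    linarith

/-- A measurable set is close to a finite union of rational balls. -/
lemma exists_ballUnion_approx (m : Measure (Fin d → ℝ)) [IsFiniteMeasure m]
    {B : Set (Fin d → ℝ)} (hB : MeasurableSet B) {ε : ℝ} (hε : 0 < ε) :
    ∃ s : Finset (RatBall d), (∀ p ∈ s, (0 : ℚ) < p.2) ∧ m.real (B ∆ ballUnion s) ≤ ε := by
  have hε' : ENNReal.ofReal (ε / 2) ≠ 0 := by simp; linarith
  obtain ⟨K, hKB, hK, hK'⟩ := hB.exists_isCompact_sdiff_lt (measure_ne_top m _) hε'
  obtain ⟨O, hBO, hO, -, hO'⟩ := hB.exists_isOpen_sdiff_lt (measure_ne_top m _) hε'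
  set P := {p : RatBall d // 0 < p.2 ∧ Metric.ball (RatBall.center p) (p.2 : ℝ) ⊆ O} with hP
  have hcov : K ⊆ ⋃ p : P, Metric.ball (RatBall.center p.1) (p.1.2 : ℝ) := by
    intro x hx
    obtain ⟨t, ht, hts⟩ := Metric.isOpen_iff.1 hO x (hBO (hKB hx))
    obtain ⟨r, hr0, hr1⟩ := exists_rat_btwn (half_pos ht)
    have hc : ∀ l, ∃ c : ℚ, |(c : ℝ) - x l| < r / 2 := fun l => by
      obtain ⟨c, h1, h2⟩ := exists_rat_btwn (show x l - (r : ℝ) / 2 < x l + (r : ℝ) / 2 by linarith)
      exact ⟨c, abs_sub_lt_iff.2 ⟨by linarith, by linarith⟩⟩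
    choose c hc using hc
    have hd : dist x (RatBall.center ((c, r) : RatBall d)) ≤ r / 2 := by
      refine (dist_pi_le_iff (by linarith)).2 fun l => ?_
      rw [Real.dist_eq, abs_sub_comm]
      exact (hc l).le
    refine Set.mem_iUnion.2 ⟨⟨(c, r), by exact_mod_cast hr0, ?_⟩, Metric.mem_ball.2 ?_⟩
    · refine fun y hy => hts (Metric.mem_ball.2 ?_)
      have := Metric.mem_ball.1 hy
      rw [dist_comm x] at hd
      simp only at this
      linarith [dist_triangle y (RatBall.center ((c, r) : RatBall d)) x]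
    · simp only
      linarith
  obtain ⟨t, ht⟩ := hK.elim_finite_subcover _ (fun p : P => Metric.isOpen_ball) hcov
  refine ⟨t.image Subtype.val, ?_, ?_⟩
  · simp only [Finset.mem_image]
    rintro _ ⟨p, -, rfl⟩
    exact p.2.1
  have hsub : B ∆ ballUnion (t.image Subtype.val) ⊆ (B \ K) ∪ (O \ B) := by
    have e : ballUnion (t.image Subtype.val) =
        ⋃ p ∈ t, Metric.ball (RatBall.center p.1) (p.1.2 : ℝ) := by
      rw [ballUnion, Finset.set_biUnion_finset_image]
    rw [e]
    rintro y (⟨hy, hy'⟩ | ⟨hy, hy'⟩)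
    · exact Or.inl ⟨hy, fun h => hy' (ht h)⟩
    · obtain ⟨p, -, hp⟩ := Set.mem_iUnion₂.1 hy
      exact Or.inr ⟨p.2.2 hp, hy'⟩
  have hlt : ∀ A : Set (Fin d → ℝ), m A < ENNReal.ofReal (ε / 2) → m.real A ≤ ε / 2 := fun A h =>
    ENNReal.toReal_le_of_le_ofReal (by linarith) h.le
  calc m.real (B ∆ ballUnion (t.image Subtype.val)) ≤ m.real ((B \ K) ∪ (O \ B)) :=
        measureReal_mono hsub
    _ ≤ m.real (B \ K) + m.real (O \ B) := measureReal_union_le _ _
    _ ≤ ε := by linarith [hlt _ hK', hlt _ hO']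

/-- The edges carry little of an absolutely continuous measure. -/
lemma exists_collar_small (m : Measure (Fin d → ℝ)) [IsFiniteMeasure m] (hm : m ≪ volume)
    {s : Finset (RatBall d)} (hs : ∀ p ∈ s, (0 : ℚ) < p.2) {ε : ℝ} (hε : 0 < ε) :
    ∀ᶠ η in 𝓝[>] (0 : ℝ), m.real (collar s η) ≤ ε := by
  have key : ∀ p ∈ s, Tendsto
      (fun η : ℝ => m {y | |‖y - RatBall.center p‖ - (p.2 : ℝ)| ≤ η}) (𝓝[>] 0) (𝓝 0) := by
    intro p hp
    have hne : ((p.2 : ℚ) : ℝ) ≠ 0 := by exact_mod_cast (hs p hp).ne'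
    have h0 : m (⋂ η > (0 : ℝ), {y | |‖y - RatBall.center p‖ - (p.2 : ℝ)| ≤ η}) = 0 := by
      refine hm (measure_mono_null ?_ (Measure.addHaar_sphere_of_ne_zero volume
        (RatBall.center p) hne))
      intro y hy
      simp only [Set.mem_iInter, Set.mem_ofPred_eq] at hy
      rw [mem_sphere_iff_norm]
      by_contra hcon
      have := abs_pos.2 (sub_ne_zero.2 hcon)
      linarith [hy _ (half_pos this)]
    rw [← h0]
    refine tendsto_measure_biInter_gt (fun η _ => ?_) (fun a b _ hab y hy => le_trans hy hab)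
      ⟨1, one_pos, measure_ne_top _ _⟩
    exact ((isClosed_le (by fun_prop) continuous_const).measurableSet).nullMeasurableSet
  have hsum : Tendsto
      (fun η : ℝ => ∑ p ∈ s, m {y | |‖y - RatBall.center p‖ - (p.2 : ℝ)| ≤ η})
      (𝓝[>] 0) (𝓝 0) := by
    simpa using tendsto_finsetSum s key
  filter_upwards [hsum.eventually (eventually_le_nhds (ENNReal.ofReal_pos.2 hε))] with η hη
  exact ENNReal.toReal_le_of_le_ofReal hε.le ((measure_biUnion_finset_le s _).trans hη)

local instance : Fact ((1 : ENNReal) ≠ ⊤) := ⟨ENNReal.one_ne_top⟩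

/-- A sequence of densities dense in `L¹`. -/
noncomputable def density (d k : ℕ) : (Fin d → ℝ) → ℝ :=
  (TopologicalSpace.denseSeq (Lp ℝ 1 (volume : Measure (Fin d → ℝ))) k : (Fin d → ℝ) → ℝ)

lemma integrable_density (d k : ℕ) : Integrable (density d k) :=
  L1.integrable_coeFn _

lemma exists_density {f : (Fin d → ℝ) → ℝ} (hf : Integrable f) {ε : ℝ} (hε : 0 < ε) :
    ∃ k, ∫ y, |f y - density d k y| ≤ ε := by
  obtain ⟨k, hk⟩ := (TopologicalSpace.denseRange_denseSeq
    (Lp ℝ 1 (volume : Measure (Fin d → ℝ)))).exists_dist_lt (hf.toL1 f) hε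
  refine ⟨k, ?_⟩
  rw [dist_eq_norm, L1.norm_eq_integral_norm] at hk
  refine le_of_eq_of_le (integral_congr_ae ?_) hk.le
  filter_upwards [Lp.coeFn_sub (hf.toL1 f)
    (TopologicalSpace.denseSeq (Lp ℝ 1 (volume : Measure (Fin d → ℝ))) k), hf.coeFn_toL1]
    with y h1 h2
  rw [h1, Pi.sub_apply, h2, Real.norm_eq_abs]
  rfl

end Vale.Agent.P109
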