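import Mathlib

/-!
P109, counting: numeric growth facts.
-/

namespace Vale.Agent.P109

open Filter Topology

/-- Polynomials stay below `2 ^ √n`. -/
lemma eventually_poly_le (c : ℝ) (m : ℕ) :
    ∀ᶠ n : ℕ in atTop, c * (n : ℝ) ^ m ≤ (2 : ℝ) ^ Real.sqrt n := by
  have hl : 0 < Real.log 2 := Real.log_pos one_lt_two
  have h := (Real.isLittleO_pow_exp_atTop (n := 2 * m)).def
    (c := Real.log 2 ^ (2 * m) / (|c| + 1)) (by positivity)
  have ht : Tendsto (fun n : ℕ => Real.sqrt n * Real.log 2) atTop atTop :=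
    Tendsto.atTop_mul_const hl (Real.tendsto_sqrt_atTop.comp tendsto_natCast_atTop_atTop)
  filter_upwards [ht.eventually h] with n hn
  rw [Real.rpow_def_of_pos (by norm_num : (0 : ℝ) < 2), mul_comm (Real.log 2)]
  have e : (Real.sqrt n * Real.log 2) ^ (2 * m) = (n : ℝ) ^ m * Real.log 2 ^ (2 * m) := by
    rw [mul_pow, pow_mul, Real.sq_sqrt (Nat.cast_nonneg n)]
  rw [e, Real.norm_eq_abs, Real.norm_eq_abs, abs_of_nonneg (by positivity),
    abs_of_nonneg (Real.exp_nonneg _), div_mul_eq_mul_div, le_div_iff₀ (by positivity)] at hn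
  have h1 : (n : ℝ) ^ m * (|c| + 1) ≤ Real.exp (Real.sqrt n * Real.log 2) := by
    have h2 : 0 < Real.log 2 ^ (2 * m) := by positivity
    nlinarith
  refine le_trans ?_ h1
  rw [mul_comm ((n : ℝ) ^ m)]
  exact mul_le_mul_of_nonneg_right (by linarith [le_abs_self c]) (by positivity)

/-- The catalogue bound is small. -/
lemma eventually_catalogue_le {ε : ℝ} (hε : 0 < ε) :
    ∀ᶠ n : ℕ in atTop,
      ((n : ℝ) + 1) * (2 : ℝ) ^ ((2 : ℝ) ^ Real.sqrt n) ≤ (2 : ℝ) ^ ((2 : ℝ) ^ (ε * n)) := by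
  have hs : ∀ᶠ n : ℕ in atTop, Real.sqrt n + 1 ≤ ε * n := by
    filter_upwards [(Real.tendsto_sqrt_atTop.comp tendsto_natCast_atTop_atTop).eventually
      (eventually_ge_atTop (2 / ε + 1))] with n hn
    simp only [Function.comp] at hn
    have h1 : Real.sqrt n * Real.sqrt n = n := Real.mul_self_sqrt (Nat.cast_nonneg n)
    have h2 : 2 ≤ ε * Real.sqrt n := by
      rw [mul_comm, ← div_le_iff₀ hε]
      linarith
    nlinarith [show (1 : ℝ) ≤ Real.sqrt n by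
      have : 0 ≤ 2 / ε := by positivity
      linarith]
  filter_upwards [hs, eventually_poly_le 2 1, eventually_ge_atTop 1] with n hn hp h1
  have h2 : ((n : ℝ) + 1) ≤ (2 : ℝ) ^ ((2 : ℝ) ^ Real.sqrt n) := by
    have hx : (n : ℝ) + 1 ≤ (2 : ℝ) ^ Real.sqrt n := by
      have : (1 : ℝ) ≤ n := by exact_mod_cast h1
      linarith [pow_one (n : ℝ)]
    refine hx.trans (Real.rpow_le_rpow_of_exponent_le one_le_two ?_)
    have hy : Real.sqrt n ≤ (n : ℝ) + 1 := by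
      rw [Real.sqrt_le_iff]
      constructor <;> nlinarith [(Nat.cast_nonneg n : (0 : ℝ) ≤ n)]
    linarith
  calc ((n : ℝ) + 1) * (2 : ℝ) ^ ((2 : ℝ) ^ Real.sqrt n)
      ≤ (2 : ℝ) ^ ((2 : ℝ) ^ Real.sqrt n) * (2 : ℝ) ^ ((2 : ℝ) ^ Real.sqrt n) :=
        mul_le_mul_of_nonneg_right h2 (by positivity)
    _ = (2 : ℝ) ^ ((2 : ℝ) ^ Real.sqrt n + (2 : ℝ) ^ Real.sqrt n) :=
        (Real.rpow_add two_pos _ _).symm
    _ ≤ _ := by
        refine Real.rpow_le_rpow_of_exponent_le one_le_two ?_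
        calc (2 : ℝ) ^ Real.sqrt n + (2 : ℝ) ^ Real.sqrt n = (2 : ℝ) ^ (Real.sqrt n + 1) := by
              rw [Real.rpow_add two_pos, Real.rpow_one]; ring
          _ ≤ _ := Real.rpow_le_rpow_of_exponent_le one_le_two hn

/-- The shadowing error after `n` steps tends to zero. -/
lemma tendsto_error {Λ a C : ℝ} {K d : ℕ} (hΛ : 0 ≤ Λ) (ha : 0 ≤ a)
    (h1 : Λ * a ^ K < 1) (h2 : Λ * (2⁻¹ : ℝ) ^ K < 1) :
    Tendsto (fun n : ℕ =>
      Λ ^ n * (3 * Λ + ((K * n : ℕ) : ℝ) ^ d + 3) * (2⁻¹ : ℝ) ^ (K * n)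
        + C * (Λ ^ n * a ^ (K * n))) atTop (𝓝 0) := by
  have e1 : Tendsto (fun n : ℕ => (Λ * (2⁻¹ : ℝ) ^ K) ^ n) atTop (𝓝 0) :=
    tendsto_pow_atTop_nhds_zero_of_lt_one (by positivity) h2
  have e2 := tendsto_pow_const_mul_const_pow_of_lt_one d (by positivity) h2
  have e3 : Tendsto (fun n : ℕ => (Λ * a ^ K) ^ n) atTop (𝓝 0) :=
    tendsto_pow_atTop_nhds_zero_of_lt_one (by positivity) h1
  have e := ((e1.const_mul (3 * Λ + 3)).add (e2.const_mul ((K : ℝ) ^ d))).add (e3.const_mul C)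
  simp only [mul_zero, add_zero] at e
  refine e.congr fun n => ?_
  simp only [mul_pow, ← pow_mul, Nat.cast_mul]
  ring

end Vale.Agent.P109
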