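import Vale.Agent.P109.Count.Shadow
import Vale.Agent.P109.Count.Geom
import Vale.Agent.P109.Count.Growth

/-!
P109, counting: the catalogue of laws and its size.
-/

namespace Vale.Agent.P109

open MeasureTheory Filter Topology

variable {d N Nb r Q : ℕ}

/-- The predicted name of a starting state, read off finite unions of balls. -/
noncomputable def Table.name (T : Table d N Nb r Q) (p : ℕ) (s : Fin N → Finset (RatBall d))
    (n : ℕ) (y : Fin N × (Fin d → ℝ)) : Word n :=
  fun t => (ballUnion (s ((T.step p)^[(t : ℕ)] y).1)).boolIndicator ((T.step p)^[(t : ℕ)] y).2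

lemma Table.measurable_name (T : Table d N Nb r Q) (p : ℕ) (s : Fin N → Finset (RatBall d))
    (n : ℕ) : Measurable (T.name p s n) := by
  have h : Measurable fun y : Fin N × (Fin d → ℝ) => (ballUnion (s y.1)).boolIndicator y.2 := by
    refine measurable_from_prod_countable_right fun i => measurable_to_bool ?_
    have e : (fun v => (ballUnion (s i)).boolIndicator v) ⁻¹' {true} = ballUnion (s i) := by
      ext v
      exact ((ballUnion (s i)).mem_iff_boolIndicator v).symm
    rw [e]
    exact measurableSet_ballUnion _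
  exact measurable_pi_lambda _ fun t => h.comp ((T.measurable_step p).iterate _)

/-- The predicted law of names for given starting densities. -/
noncomputable def Table.law (T : Table d N Nb r Q) (p : ℕ) (s : Fin N → Finset (RatBall d))
    (k : Fin N → ℕ) (n : ℕ) (w : Word n) : ℝ :=
  ∑ i, ∫ y in {y | T.name p s n (i, y) = w}, density d (k i) y

/-- The bound on the numerators of a table for precision `K n`. -/
def gridBound (K n : ℕ) : ℕ := 2 ^ (K * n + K * (K * n + 1) + K)

/-- Everything in a prediction that does not depend on the length of names. -/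
abbrev Shape := Σ d N : ℕ, ℕ × ℕ × (Fin N → Finset (RatBall d) × ℕ)

/-- A listing of all shapes. -/
noncomputable def shape : ℕ → Shape :=
  have : Nonempty Shape := ⟨⟨0, 0, 0, 0, Fin.elim0⟩⟩
  (exists_surjective_nat Shape).choose

lemma shape_surjective : Function.Surjective shape :=
  have : Nonempty Shape := ⟨⟨0, 0, 0, 0, Fin.elim0⟩⟩
  (exists_surjective_nat Shape).choose_spec

open Classical in
/-- The laws of one shape at length `n`, if they are not too many. -/
noncomputable def Shape.laws : Shape → ∀ n : ℕ, Finset (Word n → ℝ)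
  | ⟨d, N, Nb, K, sk⟩, n =>
    if (Fintype.card (Table d N Nb (K * n) (gridBound K n)) : ℝ) ≤ (2 : ℝ) ^ ((2 : ℝ) ^ Real.sqrt n)
    then Finset.univ.image fun T : Table d N Nb (K * n) (gridBound K n) =>
      T.law (K * n) (fun i => (sk i).1) (fun i => (sk i).2) n
    else ∅

open Classical in
/-- The catalogue. -/
noncomputable def catalogue (n : ℕ) : Finset (Word n → ℝ) :=
  (Finset.range (n + 1)).biUnion fun j => (shape j).laws n

lemma card_laws_le (h : Shape) (n : ℕ) :
    ((h.laws n).card : ℝ) ≤ (2 : ℝ) ^ ((2 : ℝ) ^ Real.sqrt n) := by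
  obtain ⟨d, N, Nb, K, sk⟩ := h
  simp only [Shape.laws]
  split_ifs with hs
  · exact le_trans (Nat.cast_le.2 (Finset.card_image_le.trans Finset.card_univ.le)) hs
  · simp only [Finset.card_empty, Nat.cast_zero]
    positivity

lemma small_catalogue : Small catalogue := by
  intro ε hε
  filter_upwards [eventually_catalogue_le hε] with n hn
  refine le_trans ?_ hn
  classical
  calc ((catalogue n).card : ℝ)
      ≤ ((∑ j ∈ Finset.range (n + 1), ((shape j).laws n).card : ℕ) : ℝ) := by
        exact_mod_cast Finset.card_biUnion_le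
    _ = ∑ j ∈ Finset.range (n + 1), (((shape j).laws n).card : ℝ) := by push_cast; rfl
    _ ≤ ∑ _j ∈ Finset.range (n + 1), (2 : ℝ) ^ ((2 : ℝ) ^ Real.sqrt n) :=
        Finset.sum_le_sum fun j _ => card_laws_le _ _
    _ = _ := by simp

/-- The tables of a fixed shape are eventually few. -/
lemma eventually_card_table_le (d N Nb K : ℕ) :
    ∀ᶠ n : ℕ in atTop, (Fintype.card (Table d N Nb (K * n) (gridBound K n)) : ℝ) ≤
      (2 : ℝ) ^ ((2 : ℝ) ^ Real.sqrt n) := by
  set c : ℕ := (N + (K * K + 3 * K + 2) * (d + 1 + d * K ^ d)) * (Nb * N) with hc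
  filter_upwards [eventually_poly_le c (d + 1), eventually_ge_atTop 1] with n hn h1
  set e := K * n + K * (K * n + 1) + K
  have hQ : 2 * gridBound K n + 1 ≤ 2 ^ (e + 2) := by
    have : 1 ≤ 2 ^ e := Nat.one_le_two_pow
    rw [show gridBound K n = 2 ^ e from rfl, show 2 ^ (e + 2) = 4 * 2 ^ e by ring]
    omega
  have hcard : Fintype.card (Table d N Nb (K * n) (gridBound K n)) ≤
      2 ^ ((N + (e + 2) * (d + 1 + d * (K * n) ^ d)) * (Nb * N)) := by
    simp only [Fintype.card_fun, Fintype.card_prod, Fintype.card_fin, ← pow_mul]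
    calc (N * ((2 * gridBound K n + 1) ^ d * ((2 * gridBound K n + 1) *
          (2 * gridBound K n + 1) ^ (d * (K * n) ^ d)))) ^ (Nb * N)
        ≤ (2 ^ N * ((2 ^ (e + 2)) ^ d * (2 ^ (e + 2) *
          (2 ^ (e + 2)) ^ (d * (K * n) ^ d)))) ^ (Nb * N) := by
          gcongr
          exact Nat.lt_two_pow_self.le
      _ = _ := by
          rw [← pow_succ' (2 ^ (e + 2)), ← pow_add, ← pow_mul 2 (e + 2), ← pow_add, ← pow_mul]
          congr 1
          ring
  have hW : (N + (e + 2) * (d + 1 + d * (K * n) ^ d)) * (Nb * N) ≤ c * n ^ (d + 1) := by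
    have hn1 : 1 ≤ n ^ d := Nat.one_le_pow _ _ h1
    have hn2 : 1 ≤ n ^ (d + 1) := Nat.one_le_pow _ _ h1
    have a1 : e + 2 ≤ (K * K + 3 * K + 2) * n :=
      calc e + 2 = (K * K + K) * n + (2 * K + 2) * 1 := by ring
        _ ≤ (K * K + K) * n + (2 * K + 2) * n := by gcongr
        _ = _ := by ring
    have a2 : d + 1 + d * (K * n) ^ d ≤ (d + 1 + d * K ^ d) * n ^ d :=
      calc d + 1 + d * (K * n) ^ d = (d + 1) * 1 + d * (K * n) ^ d := by ring
        _ ≤ (d + 1) * n ^ d + d * (K * n) ^ d := by gcongr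
        _ = _ := by rw [mul_pow]; ring
    calc (N + (e + 2) * (d + 1 + d * (K * n) ^ d)) * (Nb * N)
        ≤ (N * n ^ (d + 1) + ((K * K + 3 * K + 2) * n) * ((d + 1 + d * K ^ d) * n ^ d)) *
          (Nb * N) := by
          gcongr
          exact Nat.le_mul_of_pos_right N hn2
      _ = _ := by rw [hc]; ring
  calc (Fintype.card (Table d N Nb (K * n) (gridBound K n)) : ℝ)
      ≤ ((2 ^ ((N + (e + 2) * (d + 1 + d * (K * n) ^ d)) * (Nb * N)) : ℕ) : ℝ) :=
        Nat.cast_le.2 hcard
    _ = (2 : ℝ) ^ (((N + (e + 2) * (d + 1 + d * (K * n) ^ d)) * (Nb * N) : ℕ) : ℝ) := by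
        rw [Real.rpow_natCast]; push_cast; rfl
    _ ≤ _ := Real.rpow_le_rpow_of_exponent_le one_le_two
        (le_trans (by exact_mod_cast hW) hn)

end Vale.Agent.P109
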