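import Vale.Agent.P109.Count.GenShadow

/-!
P109, counting: the catalogue for tables of varying size.
-/

namespace Vale.Agent.P109

open MeasureTheory Filter Topology

/-- Everything in a prediction that does not depend on the length of names. -/
abbrev GenShape := Σ d N : ℕ, ℕ × (Fin N → Finset (RatBall d) × ℕ)

/-- A listing of all shapes. -/
noncomputable def genShape : ℕ → GenShape :=
  have : Nonempty GenShape := ⟨⟨0, 0, 0, Fin.elim0⟩⟩
  (exists_surjective_nat GenShape).choose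

lemma genShape_surjective : Function.Surjective genShape :=
  have : Nonempty GenShape := ⟨⟨0, 0, 0, Fin.elim0⟩⟩
  (exists_surjective_nat GenShape).choose_spec

/-- Numerators for precision `K n`. -/
def genGrid (K n : ℕ) : ℕ := 2 ^ (n ^ 2 + K * n)

/-- The exponent of the number of tables. -/
noncomputable def genExp (f : ℕ → ℝ) (n : ℕ) : ℝ := max (f n) 0 + Real.sqrt n

/-- A bound on the numbers of balls and degrees. -/
noncomputable def genRange (f : ℕ → ℝ) (n : ℕ) : ℕ := ⌊(2 : ℝ) ^ f n⌋₊ + 1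

open Classical in
/-- The laws of tables of one size. -/
noncomputable def sizeLaws (f : ℕ → ℝ) (d N K : ℕ) (sk : Fin N → Finset (RatBall d) × ℕ)
    (n Nb r : ℕ) : Finset (Word n → ℝ) :=
  if (Fintype.card (Table d N Nb r (genGrid K n)) : ℝ) ≤ (2 : ℝ) ^ ((2 : ℝ) ^ genExp f n)
  then Finset.univ.image fun T : Table d N Nb r (genGrid K n) =>
    T.law (K * n) (fun i => (sk i).1) (fun i => (sk i).2) n
  else ∅

open Classical in
/-- The laws of one shape at length `n`. -/
noncomputable def GenShape.laws (f : ℕ → ℝ) : GenShape → ∀ n : ℕ, Finset (Word n → ℝ)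
  | ⟨d, N, K, sk⟩, n =>
    (Finset.range (genRange f n + 1)).biUnion fun Nb =>
      (Finset.range (genRange f n + 1)).biUnion fun r => sizeLaws f d N K sk n Nb r

open Classical in
/-- The catalogue for a size function. -/
noncomputable def genCatalogue (f : ℕ → ℝ) (n : ℕ) : Finset (Word n → ℝ) :=
  (Finset.range (n + 1)).biUnion fun j => (genShape j).laws f n

lemma mem_genCatalogue {f : ℕ → ℝ} {d N K : ℕ} {sk : Fin N → Finset (RatBall d) × ℕ} {j n : ℕ}
    (hj : genShape j = ⟨d, N, K, sk⟩) (hjn : j ≤ n) {Nb r : ℕ} (hNb : Nb ≤ genRange f n)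
    (hr : r ≤ genRange f n) {c : Word n → ℝ} (hc : c ∈ sizeLaws f d N K sk n Nb r) :
    c ∈ genCatalogue f n := by
  classical
  refine Finset.mem_biUnion.2 ⟨j, Finset.mem_range.2 (by omega), ?_⟩
  rw [hj]
  exact Finset.mem_biUnion.2 ⟨Nb, Finset.mem_range.2 (by omega),
    Finset.mem_biUnion.2 ⟨r, Finset.mem_range.2 (by omega), hc⟩⟩

lemma card_sizeLaws_le (f : ℕ → ℝ) (d N K : ℕ) (sk : Fin N → Finset (RatBall d) × ℕ)
    (n Nb r : ℕ) :
    ((sizeLaws f d N K sk n Nb r).card : ℝ) ≤ (2 : ℝ) ^ ((2 : ℝ) ^ genExp f n) := by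
  classical
  simp only [sizeLaws]
  split_ifs with hs
  · exact le_trans (Nat.cast_le.2 (Finset.card_image_le.trans Finset.card_univ.le)) hs
  · simp only [Finset.card_empty, Nat.cast_zero]
    positivity

lemma card_genCatalogue_le (f : ℕ → ℝ) (n : ℕ) :
    ((genCatalogue f n).card : ℝ) ≤ ((n : ℝ) + 1) * (((genRange f n : ℝ) + 1) ^ 2 *
      (2 : ℝ) ^ ((2 : ℝ) ^ genExp f n)) := by
  classical
  have hshape : ∀ h : GenShape, ((h.laws f n).card : ℝ) ≤
      ((genRange f n : ℝ) + 1) ^ 2 * (2 : ℝ) ^ ((2 : ℝ) ^ genExp f n) := by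
    rintro ⟨d, N, K, sk⟩
    calc ((GenShape.laws f ⟨d, N, K, sk⟩ n).card : ℝ)
        ≤ ((∑ Nb ∈ Finset.range (genRange f n + 1), ∑ r ∈ Finset.range (genRange f n + 1),
            (sizeLaws f d N K sk n Nb r).card : ℕ) : ℝ) := by
          exact_mod_cast Finset.card_biUnion_le.trans
            (Finset.sum_le_sum fun Nb _ => Finset.card_biUnion_le)
      _ = ∑ Nb ∈ Finset.range (genRange f n + 1), ∑ r ∈ Finset.range (genRange f n + 1),
            ((sizeLaws f d N K sk n Nb r).card : ℝ) := by push_cast; rfl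
      _ ≤ ∑ _Nb ∈ Finset.range (genRange f n + 1), ∑ _r ∈ Finset.range (genRange f n + 1),
            (2 : ℝ) ^ ((2 : ℝ) ^ genExp f n) :=
          Finset.sum_le_sum fun Nb _ => Finset.sum_le_sum fun r _ => card_sizeLaws_le f d N K sk n Nb r
      _ = _ := by simp only [Finset.sum_const, Finset.card_range, nsmul_eq_mul]; push_cast; ring
  calc ((genCatalogue f n).card : ℝ)
      ≤ ((∑ j ∈ Finset.range (n + 1), ((genShape j).laws f n).card : ℕ) : ℝ) := by
        exact_mod_cast Finset.card_biUnion_le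
    _ = ∑ j ∈ Finset.range (n + 1), (((genShape j).laws f n).card : ℝ) := by push_cast; rfl
    _ ≤ ∑ _j ∈ Finset.range (n + 1), _ := Finset.sum_le_sum fun j _ => hshape _
    _ = _ := by simp

lemma eventually_le_mul {f : ℕ → ℝ} (hf : Tendsto (fun n : ℕ => f n / n) atTop (𝓝 0)) {ε : ℝ}
    (hε : 0 < ε) : ∀ᶠ n : ℕ in atTop, f n ≤ ε * n := by
  filter_upwards [hf.eventually (gt_mem_nhds hε), eventually_ge_atTop 1] with n hn h1
  have : (0 : ℝ) < n := by exact_mod_cast h1
  rw [div_lt_iff₀ this] at hn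
  exact hn.le

lemma small_genCatalogue {f : ℕ → ℝ} (hf : Tendsto (fun n : ℕ => f n / n) atTop (𝓝 0)) :
    Small (genCatalogue f) := by
  intro ε hε
  have hs : ∀ᶠ n : ℕ in atTop, Real.sqrt n + 1 ≤ ε / 2 * n := by
    filter_upwards [(Real.tendsto_sqrt_atTop.comp tendsto_natCast_atTop_atTop).eventually
      (eventually_ge_atTop (4 / ε + 1))] with n hn
    simp only [Function.comp] at hn
    have h1 : Real.sqrt n * Real.sqrt n = n := Real.mul_self_sqrt (Nat.cast_nonneg n)
    have h2 : 4 ≤ ε * Real.sqrt n := by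
      rw [mul_comm, ← div_le_iff₀ hε]
      linarith
    nlinarith [show (1 : ℝ) ≤ Real.sqrt n by
      have : 0 ≤ 4 / ε := by positivity
      linarith]
  filter_upwards [hs, eventually_le_mul hf (half_pos hε), eventually_le_mul hf one_pos,
    eventually_poly_le 9 1, eventually_ge_atTop 1] with n hn hfε hf1 hp h1
  refine (card_genCatalogue_le f n).trans ?_
  set X := (2 : ℝ) ^ genExp f n with hX
  have hn1 : (1 : ℝ) ≤ n := by exact_mod_cast h1
  have h9 : 9 * (n : ℝ) ≤ X := by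
    refine le_trans (by simpa using hp) (Real.rpow_le_rpow_of_exponent_le one_le_two ?_)
    simp only [genExp]
    linarith [le_max_right (f n) 0]
  have hR : (genRange f n : ℝ) + 1 ≤ (2 : ℝ) ^ (4 * (n : ℝ)) := by
    have h2 : (2 : ℝ) ^ f n ≤ (2 : ℝ) ^ (n : ℝ) :=
      Real.rpow_le_rpow_of_exponent_le one_le_two (by linarith)
    have h3 : (⌊(2 : ℝ) ^ f n⌋₊ : ℝ) ≤ (2 : ℝ) ^ f n := Nat.floor_le (by positivity)
    have h4 : (2 : ℝ) ≤ (2 : ℝ) ^ (n : ℝ) := by
      simpa using Real.rpow_le_rpow_of_exponent_le one_le_two hn1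
    have h5 : (4 : ℝ) * (2 : ℝ) ^ (n : ℝ) ≤ (2 : ℝ) ^ (4 * (n : ℝ)) := by
      calc (4 : ℝ) * (2 : ℝ) ^ (n : ℝ) = (2 : ℝ) ^ ((2 : ℝ) + n) := by
            rw [Real.rpow_add two_pos, Real.rpow_two]; norm_num
        _ ≤ _ := Real.rpow_le_rpow_of_exponent_le one_le_two (by linarith)
    simp only [genRange, Nat.cast_add, Nat.cast_one]
    linarith
  have hn2 : (n : ℝ) + 1 ≤ (2 : ℝ) ^ (n : ℝ) := by
    rw [Real.rpow_natCast]
    exact_mod_cast Nat.lt_two_pow_self (n := n)
  calc ((n : ℝ) + 1) * (((genRange f n : ℝ) + 1) ^ 2 * (2 : ℝ) ^ X)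
      ≤ (2 : ℝ) ^ (n : ℝ) * (((2 : ℝ) ^ (4 * (n : ℝ))) ^ 2 * (2 : ℝ) ^ X) := by
        refine mul_le_mul hn2 (mul_le_mul_of_nonneg_right
          (pow_le_pow_left₀ (by positivity) hR 2) (by positivity)) (by positivity) (by positivity)
    _ = (2 : ℝ) ^ (9 * (n : ℝ) + X) := by
        rw [sq, ← Real.rpow_add two_pos, ← Real.rpow_add two_pos, ← Real.rpow_add two_pos]
        ring_nf
    _ ≤ _ := by
        refine Real.rpow_le_rpow_of_exponent_le one_le_two ?_
        calc 9 * (n : ℝ) + X ≤ (2 : ℝ) ^ (genExp f n + 1) := by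
              rw [Real.rpow_add two_pos, Real.rpow_one, ← hX]; linarith
          _ ≤ _ := Real.rpow_le_rpow_of_exponent_le one_le_two (by
              simp only [genExp]
              have : max (f n) 0 ≤ ε / 2 * n := max_le hfε (by positivity)
              linarith)

/-- Tables within the size bound are few. -/
lemma eventually_card_genTable_le (f : ℕ → ℝ) (d N K : ℕ) :
    ∀ᶠ n : ℕ in atTop, ∀ Nb r : ℕ, ((Nb * (r ^ d + 1) + 1 : ℕ) : ℝ) ≤ (2 : ℝ) ^ f n →
      (Fintype.card (Table d N Nb r (genGrid K n)) : ℝ) ≤ (2 : ℝ) ^ ((2 : ℝ) ^ genExp f n) := by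
  set c : ℕ := (N + (K + 3) * (2 * d + 1)) * N with hc
  filter_upwards [eventually_poly_le c 2, eventually_ge_atTop 1] with n hn h1 Nb r hsz
  set e := n ^ 2 + K * n with he
  have hQ : 2 * genGrid K n + 1 ≤ 2 ^ (e + 2) := by
    have : 1 ≤ 2 ^ e := Nat.one_le_two_pow
    rw [show genGrid K n = 2 ^ e from rfl, show 2 ^ (e + 2) = 4 * 2 ^ e by ring]
    omega
  have hcard : Fintype.card (Table d N Nb r (genGrid K n)) ≤
      2 ^ ((N + (e + 2) * (d + 1 + d * r ^ d)) * (Nb * N)) := by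
    simp only [Fintype.card_fun, Fintype.card_prod, Fintype.card_fin, ← pow_mul]
    calc (N * ((2 * genGrid K n + 1) ^ d * ((2 * genGrid K n + 1) *
          (2 * genGrid K n + 1) ^ (d * r ^ d)))) ^ (Nb * N)
        ≤ (2 ^ N * ((2 ^ (e + 2)) ^ d * (2 ^ (e + 2) *
          (2 ^ (e + 2)) ^ (d * r ^ d)))) ^ (Nb * N) := by
          gcongr
          exact Nat.lt_two_pow_self.le
      _ = _ := by
          rw [← pow_succ' (2 ^ (e + 2)), ← pow_add, ← pow_mul 2 (e + 2), ← pow_add, ← pow_mul]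
          congr 1
          ring
  have hW : (N + (e + 2) * (d + 1 + d * r ^ d)) * (Nb * N) ≤
      c * n ^ 2 * (Nb * (r ^ d + 1) + 1) := by
    have hn2 : 1 ≤ n ^ 2 := Nat.one_le_pow _ _ h1
    have a1 : e + 2 ≤ (K + 3) * n ^ 2 := by
      have : n ≤ n ^ 2 := Nat.le_self_pow two_ne_zero n
      have := Nat.mul_le_mul_left K this
      rw [he, show (K + 3) * n ^ 2 = K * n ^ 2 + 3 * n ^ 2 by ring]
      omega
    have a2 : d + 1 + d * r ^ d ≤ (2 * d + 1) * (r ^ d + 1) := by
      rw [show (2 * d + 1) * (r ^ d + 1) = 2 * (d * r ^ d) + 2 * d + r ^ d + 1 by ring]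
      omega
    calc (N + (e + 2) * (d + 1 + d * r ^ d)) * (Nb * N)
        ≤ (N * (n ^ 2 * (r ^ d + 1)) + (K + 3) * n ^ 2 * ((2 * d + 1) * (r ^ d + 1))) *
          (Nb * N) := by
          refine Nat.mul_le_mul_right _ (add_le_add ?_ (Nat.mul_le_mul a1 a2))
          exact Nat.le_mul_of_pos_right N (Nat.mul_pos hn2 (Nat.succ_pos _))
      _ = c * n ^ 2 * (Nb * (r ^ d + 1)) := by rw [hc]; ring
      _ ≤ _ := Nat.mul_le_mul_left _ (Nat.le_succ _)
  calc (Fintype.card (Table d N Nb r (genGrid K n)) : ℝ)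
      ≤ ((2 ^ ((N + (e + 2) * (d + 1 + d * r ^ d)) * (Nb * N)) : ℕ) : ℝ) := Nat.cast_le.2 hcard
    _ = (2 : ℝ) ^ ((((N + (e + 2) * (d + 1 + d * r ^ d)) * (Nb * N)) : ℕ) : ℝ) := by
        rw [Real.rpow_natCast]; push_cast; rfl
    _ ≤ _ := by
        refine Real.rpow_le_rpow_of_exponent_le one_le_two
          ((Nat.cast_le.2 hW).trans ?_)
        rw [Nat.cast_mul, Nat.cast_mul, Nat.cast_pow, genExp, Real.rpow_add two_pos,
          mul_comm ((2 : ℝ) ^ max (f n) 0)]
        exact mul_le_mul hn (hsz.trans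
          (Real.rpow_le_rpow_of_exponent_le one_le_two (le_max_left _ _))) (by positivity)
          (by positivity)

end Vale.Agent.P109
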