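import Vale.Agent.P109.GenSpec
import Vale.Agent.P109.Count.Law

/-!
P109, counting: tables of varying size shadow the orbits of a system.
-/

namespace Vale.Agent.P109

open MeasureTheory

universe u

variable {d N Nb r Q : ℕ} {M : Type u}

/-- All numbers of `T` are within `q` of true ones with radii at least `ρ₀`, Lipschitz constant
`Λ` and error `β`. -/
structure Fits (U : Fin N → Set M) (z : Fin N → M → Fin d → ℝ) (S : M → M)
    (T : Table d N Nb r Q) (p : ℕ) (q β Λ ρ₀ : ℝ) (ctr : Fin N → Fin Nb → Fin d → ℝ)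
    (rad : Fin N → Fin Nb → ℝ) : Prop where
  low : ∀ i b, ρ₀ ≤ rad i b
  ctr_close : ∀ i b, ‖ctr i b - T.ctr p i b‖ ≤ q
  rad_close : ∀ i b, |rad i b - T.rad p i b| ≤ q
  cover : ∀ i, ∀ x ∈ U i, ∃ b, ‖z i x - ctr i b‖ < rad i b
  maps : ∀ i b, ∀ x ∈ U i, ‖z i x - ctr i b‖ < 3 * rad i b → S x ∈ U (T i b).1
  coef : ∀ i b, ∃ c : (Fin d → Fin r) → Fin d → ℝ, (∀ α, ‖c α - T.coef p i b α‖ ≤ q) ∧
    (∀ v w : Fin d → ℝ, ‖v‖ ≤ 1 → ‖w‖ ≤ 1 →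
      ‖peval c v - peval c w‖ ≤ Λ * (4 * rad i b) * ‖v - w‖) ∧
    ∀ x ∈ U i, ‖z i x - ctr i b‖ < 3 * rad i b →
      ‖z (T i b).1 (S x) - peval c (rel (ctr i b) (rad i b) (z i x))‖ ≤ β

variable {U : Fin N → Set M} {z : Fin N → M → Fin d → ℝ} {S : M → M}
  {T : Table d N Nb r Q} {p : ℕ} {q β Λ ρ₀ : ℝ} {ctr : Fin N → Fin Nb → Fin d → ℝ}
  {rad : Fin N → Fin Nb → ℝ}

/-- One step loses at most a fixed factor. -/
lemma Fits.step_le (hT : Fits U z S T p q β Λ ρ₀ ctr rad) (hq : 0 ≤ q) (hΛ : 0 ≤ Λ) {e : ℝ}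
    (he : 0 ≤ e) (hsmall : e + 3 * q < ρ₀) {x : M} {i : Fin N} {v : Fin d → ℝ} (hx : x ∈ U i)
    (hv : ‖z i x - v‖ ≤ e) :
    S x ∈ U (T.step p (i, v)).1 ∧
      ‖z (T.step p (i, v)).1 (S x) - (T.step p (i, v)).2‖ ≤
        Λ * (e + 3 * q) + (r : ℝ) ^ d * q + β := by
  have hex : ∃ b ∈ List.finRange Nb, ‖v - T.ctr p i b‖ < 2 * T.rad p i b := by
    obtain ⟨b, hb⟩ := hT.cover i x hx
    refine ⟨b, List.mem_finRange b, ?_⟩
    have h1 := hT.low i b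
    have h2 := (abs_le.1 (hT.rad_close i b)).2
    calc ‖v - T.ctr p i b‖
        = ‖-(z i x - v) + (z i x - ctr i b) + (ctr i b - T.ctr p i b)‖ := by
          congr 1; abel
      _ ≤ ‖-(z i x - v)‖ + ‖z i x - ctr i b‖ + ‖ctr i b - T.ctr p i b‖ := norm_add₃_le
      _ < 2 * T.rad p i b := by rw [norm_neg]; linarith [hT.ctr_close i b]
  obtain ⟨b, hb, hstep⟩ := T.stepList_spec p (i, v) _ hex
  simp only at hb hstep
  rw [Table.step, hstep]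
  have hρ : 0 < rad i b := by linarith [hT.low i b]
  have hr1 := (abs_le.1 (hT.rad_close i b)).1
  have hr2 := (abs_le.1 (hT.rad_close i b)).2
  have hρ' : 0 < T.rad p i b := by linarith [hT.low i b]
  have hnear : ‖z i x - ctr i b‖ < 3 * rad i b := by
    calc ‖z i x - ctr i b‖
        = ‖(z i x - v) + (v - T.ctr p i b) + -(ctr i b - T.ctr p i b)‖ := by
          congr 1; abel
      _ ≤ ‖z i x - v‖ + ‖v - T.ctr p i b‖ + ‖-(ctr i b - T.ctr p i b)‖ := norm_add₃_le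
      _ < 3 * rad i b := by rw [norm_neg]; linarith [hT.ctr_close i b, hT.low i b]
  refine ⟨hT.maps i b x hx hnear, ?_⟩
  obtain ⟨c, hc1, hc2, hc3⟩ := hT.coef i b
  have hu : ∀ {w a : Fin d → ℝ} {ρ s : ℝ}, 0 < ρ → ‖w - a‖ ≤ s * ρ → s ≤ 4 →
      ‖rel a ρ w‖ ≤ 1 := by
    intro w a ρ s hρ hw hs
    rw [rel, norm_smul, Real.norm_eq_abs, abs_of_pos (inv_pos.2 (by linarith : (0:ℝ) < 4 * ρ)),
      inv_mul_le_iff₀ (by linarith)]
    nlinarith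
  have hu1 := hu hρ hnear.le (by norm_num : (3 : ℝ) ≤ 4)
  have hu2 := hu hρ' hb.le (by norm_num : (2 : ℝ) ≤ 4)
  set u := rel (ctr i b) (rad i b) (z i x)
  set u' := rel (T.ctr p i b) (T.rad p i b) v
  have h3 : ‖u - u'‖ ≤ (e + 3 * q) / (4 * rad i b) :=
    rel_sub_le hρ hρ' hv (hT.ctr_close i b) (hT.rad_close i b) hb.le
  have h4 : ‖peval c u - peval c u'‖ ≤ Λ * (e + 3 * q) := by
    refine (hc2 _ _ hu1 hu2).trans ?_
    calc Λ * (4 * rad i b) * ‖u - u'‖ ≤ Λ * (4 * rad i b) * ((e + 3 * q) / (4 * rad i b)) :=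
          mul_le_mul_of_nonneg_left h3 (by positivity)
      _ = _ := by field_simp
  have h5 : ‖peval c u' - peval (T.coef p i b) u'‖ ≤ (r : ℝ) ^ d * q :=
    peval_sub_le _ _ hc1 hu2
  have h6 := hc3 x hx hnear
  calc ‖z (T i b).1 (S x) - peval (T.coef p i b) u'‖
      = ‖(z (T i b).1 (S x) - peval c u) + (peval c u - peval c u') +
          (peval c u' - peval (T.coef p i b) u')‖ := by congr 1; abel
    _ ≤ ‖z (T i b).1 (S x) - peval c u‖ + ‖peval c u - peval c u'‖ +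
          ‖peval c u' - peval (T.coef p i b) u'‖ := norm_add₃_le
    _ ≤ _ := by linarith

/-- Orbits are shadowed for `n` steps. -/
lemma Fits.iterate_le (hT : Fits U z S T p q β Λ ρ₀ ctr rad) (hq : 0 ≤ q) (hβ : 0 ≤ β)
    (hΛ2 : 2 ≤ Λ) {n : ℕ} {η : ℝ}
    (hη : Λ ^ n * (3 * Λ * q + (r : ℝ) ^ d * q + β) ≤ η) (hsmall : η + 3 * q < ρ₀) {x : M}
    {i : Fin N} (hx : x ∈ U i) :
    ∀ t ≤ n, S^[t] x ∈ U ((T.step p)^[t] (i, z i x)).1 ∧
      ‖z ((T.step p)^[t] (i, z i x)).1 (S^[t] x) - ((T.step p)^[t] (i, z i x)).2‖ ≤ η := by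
  set γ := 3 * Λ * q + (r : ℝ) ^ d * q + β with hγdef
  have hγ : 0 ≤ γ := by positivity
  have hpow : ∀ t ≤ n, (Λ ^ t - 1) * γ ≤ η := fun t ht => by
    refine le_trans (mul_le_mul_of_nonneg_right ?_ hγ) hη
    linarith [pow_le_pow_right₀ (by linarith : (1 : ℝ) ≤ Λ) ht]
  suffices h : ∀ t ≤ n, S^[t] x ∈ U ((T.step p)^[t] (i, z i x)).1 ∧
      ‖z ((T.step p)^[t] (i, z i x)).1 (S^[t] x) - ((T.step p)^[t] (i, z i x)).2‖ ≤
        (Λ ^ t - 1) * γ from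
    fun t ht => ⟨(h t ht).1, (h t ht).2.trans (hpow t ht)⟩
  intro t
  induction t with
  | zero => exact fun _ => ⟨hx, by simp⟩
  | succ t ih =>
    intro ht
    obtain ⟨h1, h2⟩ := ih (by omega)
    have he : 0 ≤ (Λ ^ t - 1) * γ :=
      mul_nonneg (by linarith [one_le_pow₀ (n := t) (by linarith : (1 : ℝ) ≤ Λ)]) hγ
    obtain ⟨h3, h4⟩ := hT.step_le hq (by linarith) he (by linarith [hpow t (by omega)]) h1 h2
    rw [Function.iterate_succ_apply', Function.iterate_succ_apply']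
    refine ⟨h3, h4.trans ?_⟩
    have e : Λ * ((Λ ^ t - 1) * γ + 3 * q) + (r : ℝ) ^ d * q + β
        = Λ * (Λ ^ t - 1) * γ + γ := by rw [hγdef]; ring
    rw [e, pow_succ]
    nlinarith

/-- Some table fits given numbers. -/
lemma exists_fits {B : ℝ} {target : Fin N → Fin Nb → Fin N}
    (hlow : ∀ i b, ρ₀ ≤ rad i b) (h0 : 0 ≤ ρ₀)
    (hc : ∀ i b, ‖ctr i b‖ ≤ B) (hr : ∀ i b, rad i b ≤ B)
    (hQ : B * (2 : ℝ) ^ p ≤ Q) (hcov : ∀ i, ∀ x ∈ U i, ∃ b, ‖z i x - ctr i b‖ < rad i b)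
    (hmap : ∀ i b, ∀ x ∈ U i, ‖z i x - ctr i b‖ < 3 * rad i b → S x ∈ U (target i b))
    (hcoef : ∀ i b, ∃ c : (Fin d → Fin r) → Fin d → ℝ, (∀ α, ‖c α‖ ≤ B) ∧
      (∀ v w : Fin d → ℝ, ‖v‖ ≤ 1 → ‖w‖ ≤ 1 →
        ‖peval c v - peval c w‖ ≤ Λ * (4 * rad i b) * ‖v - w‖) ∧
      ∀ x ∈ U i, ‖z i x - ctr i b‖ < 3 * rad i b →
        ‖z (target i b) (S x) - peval c (rel (ctr i b) (rad i b) (z i x))‖ ≤ β) :
    ∃ T : Table d N Nb r Q, Fits U z S T p ((2⁻¹ : ℝ) ^ p) β Λ ρ₀ ctr rad := by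
  have g : ∀ x : ℝ, |x| ≤ B → ∃ k : Fin (2 * Q + 1), |x - gridVal p Q k| ≤ (2⁻¹ : ℝ) ^ p :=
    fun x hx => exists_grid ((mul_le_mul_of_nonneg_right hx (by positivity)).trans hQ)
  have hE : ∀ i b, ∃ E : Entry d N r Q, E.1 = target i b ∧
      (∀ l, |ctr i b l - gridVal p Q (E.2.1 l)| ≤ (2⁻¹ : ℝ) ^ p) ∧
      |rad i b - gridVal p Q E.2.2.1| ≤ (2⁻¹ : ℝ) ^ p ∧
      ∃ c : (Fin d → Fin r) → Fin d → ℝ,
        (∀ α l, |c α l - gridVal p Q (E.2.2.2 α l)| ≤ (2⁻¹ : ℝ) ^ p) ∧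
        (∀ v w : Fin d → ℝ, ‖v‖ ≤ 1 → ‖w‖ ≤ 1 →
          ‖peval c v - peval c w‖ ≤ Λ * (4 * rad i b) * ‖v - w‖) ∧
        ∀ x ∈ U i, ‖z i x - ctr i b‖ < 3 * rad i b →
          ‖z (target i b) (S x) - peval c (rel (ctr i b) (rad i b) (z i x))‖ ≤ β := by
    intro i b
    obtain ⟨c, hc1, hc2, hc3⟩ := hcoef i b
    choose k1 hk1 using fun l => g (ctr i b l) ((norm_le_pi_norm (ctr i b) l).trans (hc i b))
    obtain ⟨k2, hk2⟩ := g (rad i b) (by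
      rw [abs_of_nonneg (h0.trans (hlow i b))]; exact hr i b)
    choose k3 hk3 using fun α l => g (c α l) ((norm_le_pi_norm (c α) l).trans (hc1 α))
    exact ⟨(target i b, k1, k2, k3), rfl, hk1, hk2, c, hk3, hc2, hc3⟩
  choose E h1 h2 h3 c h4 h5 h6 using hE
  have hq : (0 : ℝ) ≤ (2⁻¹ : ℝ) ^ p := by positivity
  exact ⟨E, hlow, fun i b => (pi_norm_le_iff_of_nonneg hq).2 (h2 i b), h3, hcov,
    fun i b x hx hn => (h1 i b).symm ▸ hmap i b x hx hn,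
    fun i b => ⟨c i b, fun α => (pi_norm_le_iff_of_nonneg hq).2 (h4 i b α), h5 i b,
      fun x hx hn => (h1 i b).symm ▸ h6 i b x hx hn⟩⟩

/-- In dimension zero the degree does not matter, so it may be taken bounded by the size. -/
lemma exists_degree (r : ℕ) : ∃ r' : ℕ, r' ≤ r ^ d + 1 ∧ r' ^ d = r ^ d ∧
    ∀ c : (Fin d → Fin r) → Fin d → ℝ, ∃ c' : (Fin d → Fin r') → Fin d → ℝ,
      (∀ α', ∃ α, c' α' = c α) ∧ ∀ v, peval c' v = peval c v := by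
  rcases Nat.eq_zero_or_pos d with hd | hd
  · subst hd
    refine ⟨1, by simp, by simp, fun c => ⟨fun _ => c fun i => i.elim0, fun _ => ⟨_, rfl⟩, fun v => ?_⟩⟩
    simp only [peval, Finset.univ_unique, Finset.sum_singleton, Finset.univ_eq_empty,
      Finset.prod_empty, one_smul]
    exact congrArg c (funext fun i => i.elim0)
  · exact ⟨r, (Nat.le_self_pow hd.ne' r).trans (Nat.le_succ _), rfl,
      fun c => ⟨c, fun α => ⟨α, rfl⟩, fun v => rfl⟩⟩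

end Vale.Agent.P109
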