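import Vale.Agent.P109.Poly

/-!
P109, counting: finitely many quantised tables predict the orbits of a polynomial system.
-/

namespace Vale.Agent.P109

open MeasureTheory

universe u

/-- The numbers `(k - Q) / 2 ^ p`, `k ≤ 2 Q`. -/
noncomputable def gridVal (p Q : ℕ) (k : Fin (2 * Q + 1)) : ℝ :=
  (((k : ℕ) : ℝ) - Q) * (2⁻¹ : ℝ) ^ p

lemma exists_grid {p Q : ℕ} {x : ℝ} (h : |x| * (2 : ℝ) ^ p ≤ Q) :
    ∃ k : Fin (2 * Q + 1), |x - gridVal p Q k| ≤ (2⁻¹ : ℝ) ^ p := by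
  have h2 : (0 : ℝ) < (2 : ℝ) ^ p := by positivity
  set y : ℝ := x * (2 : ℝ) ^ p with hy
  have hyb : |y| ≤ Q := by rw [hy, abs_mul, abs_of_pos h2]; exact h
  obtain ⟨hlo, hhi⟩ := abs_le.1 hyb
  have hz0 : (0 : ℤ) ≤ ⌊y⌋ + Q := by
    have : -(Q : ℤ) ≤ ⌊y⌋ := Int.le_floor.2 (by push_cast; exact hlo)
    omega
  have hz1 : ⌊y⌋ + Q ≤ 2 * Q := by
    have : ⌊y⌋ ≤ (Q : ℤ) := by
      have := (Int.floor_le y).trans hhi
      exact_mod_cast this
    omega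
  refine ⟨⟨(⌊y⌋ + Q).toNat, by omega⟩, ?_⟩
  have e : (((⌊y⌋ + Q).toNat : ℕ) : ℝ) = (⌊y⌋ : ℝ) + Q := by
    have := Int.toNat_of_nonneg hz0
    exact_mod_cast this
  rw [gridVal]
  simp only
  rw [e, add_sub_cancel_right, inv_pow]
  have e2 : x - (⌊y⌋ : ℝ) * ((2 : ℝ) ^ p)⁻¹ = (y - ⌊y⌋) * ((2 : ℝ) ^ p)⁻¹ := by
    rw [hy]; field_simp
  rw [e2, abs_mul, abs_of_pos (inv_pos.2 h2), abs_of_nonneg (by linarith [Int.floor_le y])]
  exact mul_le_of_le_one_left (inv_pos.2 h2).le (by linarith [Int.lt_floor_add_one y])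

/-- An entry of a table: target, centre, radius, coefficients. -/
abbrev Entry (d N r Q : ℕ) :=
  Fin N × (Fin d → Fin (2 * Q + 1)) × Fin (2 * Q + 1) ×
    ((Fin d → Fin r) → Fin d → Fin (2 * Q + 1))

/-- A table: one entry for each ball of each chart. -/
abbrev Table (d N Nb r Q : ℕ) := Fin N → Fin Nb → Entry d N r Q

variable {d N Nb r Q : ℕ}

/-- Quantised centre. -/
noncomputable def Table.ctr (T : Table d N Nb r Q) (p : ℕ) (i : Fin N) (b : Fin Nb) :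
    Fin d → ℝ :=
  fun l => gridVal p Q ((T i b).2.1 l)

/-- Quantised radius. -/
noncomputable def Table.rad (T : Table d N Nb r Q) (p : ℕ) (i : Fin N) (b : Fin Nb) : ℝ :=
  gridVal p Q (T i b).2.2.1

/-- Quantised coefficients. -/
noncomputable def Table.coef (T : Table d N Nb r Q) (p : ℕ) (i : Fin N) (b : Fin Nb) :
    (Fin d → Fin r) → Fin d → ℝ :=
  fun α l => gridVal p Q ((T i b).2.2.2 α l)

/-- The first listed ball that contains the point decides the next state. -/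
noncomputable def Table.stepList (T : Table d N Nb r Q) (p : ℕ) :
    List (Fin Nb) → Fin N × (Fin d → ℝ) → Fin N × (Fin d → ℝ)
  | [], y => y
  | b :: l, y =>
    if ‖y.2 - T.ctr p y.1 b‖ < 2 * T.rad p y.1 b then
      ((T y.1 b).1, peval (T.coef p y.1 b) (rel (T.ctr p y.1 b) (T.rad p y.1 b) y.2))
    else T.stepList p l y

/-- One predicted step. -/
noncomputable def Table.step (T : Table d N Nb r Q) (p : ℕ) :
    Fin N × (Fin d → ℝ) → Fin N × (Fin d → ℝ) :=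
  T.stepList p (List.finRange Nb)

lemma Table.stepList_spec (T : Table d N Nb r Q) (p : ℕ) (y : Fin N × (Fin d → ℝ)) :
    ∀ l : List (Fin Nb), (∃ b ∈ l, ‖y.2 - T.ctr p y.1 b‖ < 2 * T.rad p y.1 b) →
      ∃ b, ‖y.2 - T.ctr p y.1 b‖ < 2 * T.rad p y.1 b ∧
        T.stepList p l y =
          ((T y.1 b).1, peval (T.coef p y.1 b) (rel (T.ctr p y.1 b) (T.rad p y.1 b) y.2))
  | [], h => by obtain ⟨b, hb, -⟩ := h; simp at hb
  | c :: l, h => by
    by_cases hc : ‖y.2 - T.ctr p y.1 c‖ < 2 * T.rad p y.1 c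
    · exact ⟨c, hc, by rw [Table.stepList, if_pos hc]⟩
    · obtain ⟨b, hb, hb'⟩ := h
      rcases List.mem_cons.1 hb with rfl | hb
      · exact absurd hb' hc
      · obtain ⟨b', h1, h2⟩ := T.stepList_spec p y l ⟨b, hb, hb'⟩
        exact ⟨b', h1, by rw [Table.stepList, if_neg hc, h2]⟩

lemma measurable_peval {d r : ℕ} (c : (Fin d → Fin r) → Fin d → ℝ) :
    Measurable (fun v : Fin d → ℝ => peval c v) := by
  refine Continuous.measurable ?_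
  unfold peval
  fun_prop

lemma Table.measurable_step (T : Table d N Nb r Q) (p : ℕ) : Measurable (T.step p) := by
  suffices h : ∀ l : List (Fin Nb), Measurable (T.stepList p l) from h _
  intro l
  refine measurable_from_prod_countable_right fun i => ?_
  induction l with
  | nil => exact measurable_const.prodMk measurable_id
  | cons b l ih =>
    simp only [Table.stepList]
    refine Measurable.ite (measurableSet_lt (((measurable_id (α := Fin d → ℝ)).sub_const _).norm) measurable_const)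
      (measurable_const.prodMk ((measurable_peval _).comp ?_)) ih
    unfold rel
    exact ((measurable_id (α := Fin d → ℝ)).sub_const _).const_smul ((4 * T.rad p i b)⁻¹)

lemma peval_sub_le {d r : ℕ} (c c' : (Fin d → Fin r) → Fin d → ℝ) {q : ℝ}
    (hq : ∀ α, ‖c α - c' α‖ ≤ q) {v : Fin d → ℝ} (hv : ‖v‖ ≤ 1) :
    ‖peval c v - peval c' v‖ ≤ (r : ℝ) ^ d * q := by
  simp only [peval, ← Finset.sum_sub_distrib, ← smul_sub]
  refine (norm_sum_le _ _).trans ?_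
  calc ∑ α, ‖(∏ i, v i ^ (α i : ℕ)) • (c α - c' α)‖
      ≤ ∑ _α : Fin d → Fin r, q := by
        refine Finset.sum_le_sum fun α _ => ?_
        rw [norm_smul, Real.norm_eq_abs, Finset.abs_prod]
        refine le_trans (mul_le_of_le_one_left (norm_nonneg _) ?_) (hq α)
        refine Finset.prod_le_one (fun i _ => abs_nonneg _) fun i _ => ?_
        rw [abs_pow]
        exact pow_le_one₀ (abs_nonneg _) ((norm_le_pi_norm v i).trans hv)
    _ = _ := by simp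

lemma rel_sub_le {d : ℕ} {ρ ρ' e q : ℝ} {z v c c' : Fin d → ℝ} (hρ : 0 < ρ) (hρ' : 0 < ρ')
    (hz : ‖z - v‖ ≤ e) (hc : ‖c - c'‖ ≤ q) (hr : |ρ - ρ'| ≤ q) (hv : ‖v - c'‖ ≤ 2 * ρ') :
    ‖rel c ρ z - rel c' ρ' v‖ ≤ (e + 3 * q) / (4 * ρ) := by
  have e1 : rel c ρ z - rel c' ρ' v =
      (4 * ρ)⁻¹ • ((z - c) - (v - c')) + ((4 * ρ)⁻¹ - (4 * ρ')⁻¹) • (v - c') := by
    simp only [rel, smul_sub, sub_smul]
    abel
  rw [e1]
  refine (norm_add_le _ _).trans ?_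
  rw [norm_smul, norm_smul, Real.norm_eq_abs, Real.norm_eq_abs,
    abs_of_pos (inv_pos.2 (by linarith : (0 : ℝ) < 4 * ρ))]
  have h1 : ‖(z - c) - (v - c')‖ ≤ e + q := by
    rw [show (z - c) - (v - c') = (z - v) - (c - c') by abel]
    exact (norm_sub_le _ _).trans (add_le_add hz hc)
  have h2 : |(4 * ρ)⁻¹ - (4 * ρ')⁻¹| * ‖v - c'‖ ≤ (4 * ρ)⁻¹ * (2 * q) := by
    have e2 : (4 * ρ)⁻¹ - (4 * ρ')⁻¹ = (4 * ρ)⁻¹ * ((ρ' - ρ) / ρ') := by field_simp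
    rw [e2, abs_mul, abs_of_pos (inv_pos.2 (by linarith : (0 : ℝ) < 4 * ρ)), mul_assoc]
    refine mul_le_mul_of_nonneg_left ?_ (by positivity)
    rw [abs_div, abs_of_pos hρ', div_mul_eq_mul_div, div_le_iff₀ hρ', abs_sub_comm]
    calc |ρ - ρ'| * ‖v - c'‖ ≤ q * (2 * ρ') :=
          mul_le_mul hr hv (norm_nonneg _) ((abs_nonneg _).trans hr)
      _ = _ := by ring
  calc (4 * ρ)⁻¹ * ‖(z - c) - (v - c')‖ + |(4 * ρ)⁻¹ - (4 * ρ')⁻¹| * ‖v - c'‖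
      ≤ (4 * ρ)⁻¹ * (e + q) + (4 * ρ)⁻¹ * (2 * q) :=
        add_le_add (mul_le_mul_of_nonneg_left h1 (by positivity)) h2
    _ = _ := by ring

variable {M : Type u} [MeasurableSpace M] {ν : Measure M} {S : M → M}

namespace PolySystem

variable (D : PolySystem d ν S)

/-- All numbers of `T` are within `q` of those of `D` at some degree `r`. -/
structure Approx (T : Table d D.N D.Nb r Q) (p : ℕ) (q : ℝ) : Prop where
  tgt : ∀ i b, (T i b).1 = D.target i b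
  ctr : ∀ i b, ‖D.ctr i b - T.ctr p i b‖ ≤ q
  rad : ∀ i b, |D.rad i b - T.rad p i b| ≤ q
  coef : ∀ i b, ∃ c : (Fin d → Fin r) → Fin d → ℝ, (∀ α, ‖c α - T.coef p i b α‖ ≤ q) ∧
    (∀ v w : Fin d → ℝ, ‖v‖ ≤ 1 → ‖w‖ ≤ 1 → ‖peval c v - peval c w‖ ≤ D.L * ‖v - w‖) ∧
    ∀ x ∈ D.U i, ‖D.z i x - D.ctr i b‖ < 3 * D.rad i b →
      ‖D.z (D.target i b) (S x) - peval c (rel (D.ctr i b) (D.rad i b) (D.z i x))‖ ≤
        D.C * D.a ^ r

/-- Some table is close to the system. -/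
lemma exists_approx {p r Q : ℕ} {B : ℝ} (hc : ∀ i b, ‖D.ctr i b‖ ≤ B)
    (hr : ∀ i b, D.rad i b ≤ B) (hC : |D.C| ^ (r + 1) ≤ B) (hQ : B * (2 : ℝ) ^ p ≤ Q) :
    ∃ T : Table d D.N D.Nb r Q, D.Approx T p ((2⁻¹ : ℝ) ^ p) := by
  have g : ∀ x : ℝ, |x| ≤ B → ∃ k : Fin (2 * Q + 1), |x - gridVal p Q k| ≤ (2⁻¹ : ℝ) ^ p :=
    fun x hx => exists_grid ((mul_le_mul_of_nonneg_right hx (by positivity)).trans hQ)
  have hB : ∀ i b, ∃ E : Entry d D.N r Q, E.1 = D.target i b ∧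
      (∀ l, |D.ctr i b l - gridVal p Q (E.2.1 l)| ≤ (2⁻¹ : ℝ) ^ p) ∧
      |D.rad i b - gridVal p Q E.2.2.1| ≤ (2⁻¹ : ℝ) ^ p ∧
      ∃ c : (Fin d → Fin r) → Fin d → ℝ,
        (∀ α l, |c α l - gridVal p Q (E.2.2.2 α l)| ≤ (2⁻¹ : ℝ) ^ p) ∧
        (∀ v w : Fin d → ℝ, ‖v‖ ≤ 1 → ‖w‖ ≤ 1 → ‖peval c v - peval c w‖ ≤ D.L * ‖v - w‖) ∧
        ∀ x ∈ D.U i, ‖D.z i x - D.ctr i b‖ < 3 * D.rad i b →
          ‖D.z (D.target i b) (S x) - peval c (rel (D.ctr i b) (D.rad i b) (D.z i x))‖ ≤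
            D.C * D.a ^ r := by
    intro i b
    obtain ⟨c, hc1, hc2, hc3⟩ := D.poly r i b
    choose k1 hk1 using fun l => g (D.ctr i b l) (((norm_le_pi_norm (D.ctr i b) l)).trans (hc i b))
    obtain ⟨k2, hk2⟩ := g (D.rad i b) (by rw [abs_of_pos (D.rad_pos i b)]; exact hr i b)
    choose k3 hk3 using fun α l => g (c α l) (((norm_le_pi_norm (c α) l).trans (hc1 α)).trans
      (((le_abs_self _).trans (abs_pow D.C _).le).trans hC))
    exact ⟨(D.target i b, k1, k2, k3), rfl, hk1, hk2, c, hk3, hc2, hc3⟩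
  choose E h1 h2 h3 c h4 h5 h6 using hB
  have hq : (0 : ℝ) ≤ (2⁻¹ : ℝ) ^ p := by positivity
  exact ⟨E, h1, fun i b => (pi_norm_le_iff_of_nonneg hq).2 (h2 i b), h3,
    fun i b => ⟨c i b, fun α => (pi_norm_le_iff_of_nonneg hq).2 (h4 i b α), h5 i b, h6 i b⟩⟩

/-- One step loses at most a fixed factor. -/
lemma step_le {T : Table d D.N D.Nb r Q} {p : ℕ} {q e Λ ρ₀ : ℝ} (hT : D.Approx T p q)
    (hq : 0 ≤ q) (he : 0 ≤ e) (hρ₀ : ∀ i b, ρ₀ ≤ D.rad i b) (hsmall : e + 3 * q < ρ₀)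
    (hΛ : ∀ i b, |D.L| / (4 * D.rad i b) ≤ Λ) {x : M} {i : Fin D.N}
    {v : Fin d → ℝ} (hx : x ∈ D.U i) (hv : ‖D.z i x - v‖ ≤ e) :
    S x ∈ D.U (T.step p (i, v)).1 ∧
      ‖D.z (T.step p (i, v)).1 (S x) - (T.step p (i, v)).2‖ ≤
        Λ * (e + 3 * q) + (r : ℝ) ^ d * q + |D.C| * D.a ^ r := by
  have hex : ∃ b ∈ List.finRange D.Nb, ‖v - T.ctr p i b‖ < 2 * T.rad p i b := by
    obtain ⟨b, hb⟩ := D.ball_cover i x hx
    refine ⟨b, List.mem_finRange b, ?_⟩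
    have h1 := hρ₀ i b
    have h2 := (abs_le.1 (hT.rad i b)).2
    calc ‖v - T.ctr p i b‖
        = ‖-(D.z i x - v) + (D.z i x - D.ctr i b) + (D.ctr i b - T.ctr p i b)‖ := by
          congr 1; abel
      _ ≤ ‖-(D.z i x - v)‖ + ‖D.z i x - D.ctr i b‖ + ‖D.ctr i b - T.ctr p i b‖ :=
          norm_add₃_le
      _ < 2 * T.rad p i b := by rw [norm_neg]; linarith [hT.ctr i b]
  obtain ⟨b, hb, hstep⟩ := T.stepList_spec p (i, v) _ hex
  simp only at hb hstep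
  rw [Table.step, hstep, hT.tgt i b]
  have hρ := D.rad_pos i b
  have hr1 := (abs_le.1 (hT.rad i b)).1
  have hr2 := (abs_le.1 (hT.rad i b)).2
  have hρ' : 0 < T.rad p i b := by linarith [hρ₀ i b]
  have hnear : ‖D.z i x - D.ctr i b‖ < 3 * D.rad i b := by
    calc ‖D.z i x - D.ctr i b‖
        = ‖(D.z i x - v) + (v - T.ctr p i b) + -(D.ctr i b - T.ctr p i b)‖ := by
          congr 1; abel
      _ ≤ ‖D.z i x - v‖ + ‖v - T.ctr p i b‖ + ‖-(D.ctr i b - T.ctr p i b)‖ := norm_add₃_le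
      _ < 3 * D.rad i b := by rw [norm_neg]; linarith [hT.ctr i b, hρ₀ i b]
  refine ⟨D.ball_map i b x hx hnear, ?_⟩
  obtain ⟨c, hc1, hc2, hc3⟩ := hT.coef i b
  have hu : ∀ {w a : Fin d → ℝ} {ρ s : ℝ}, 0 < ρ → ‖w - a‖ ≤ s * ρ → s ≤ 4 →
      ‖rel a ρ w‖ ≤ 1 := by
    intro w a ρ s hρ hw hs
    rw [rel, norm_smul, Real.norm_eq_abs, abs_of_pos (inv_pos.2 (by linarith : (0:ℝ) < 4 * ρ)),
      inv_mul_le_iff₀ (by linarith)]
    nlinarith
  have hu1 := hu hρ hnear.le (by norm_num : (3 : ℝ) ≤ 4)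
  have hu2 := hu hρ' hb.le (by norm_num : (2 : ℝ) ≤ 4)
  set u := rel (D.ctr i b) (D.rad i b) (D.z i x)
  set u' := rel (T.ctr p i b) (T.rad p i b) v
  have h3 : ‖u - u'‖ ≤ (e + 3 * q) / (4 * D.rad i b) :=
    rel_sub_le hρ hρ' hv (hT.ctr i b) (hT.rad i b) hb.le
  have h4 : ‖peval c u - peval c u'‖ ≤ Λ * (e + 3 * q) := by
    refine (hc2 _ _ hu1 hu2).trans ?_
    calc D.L * ‖u - u'‖ ≤ |D.L| * ((e + 3 * q) / (4 * D.rad i b)) :=
          mul_le_mul (le_abs_self _) h3 (norm_nonneg _) (abs_nonneg _)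
      _ = |D.L| / (4 * D.rad i b) * (e + 3 * q) := by ring
      _ ≤ _ := mul_le_mul_of_nonneg_right (hΛ i b) (by linarith)
  have h5 : ‖peval c u' - peval (T.coef p i b) u'‖ ≤ (r : ℝ) ^ d * q :=
    peval_sub_le _ _ hc1 hu2
  have h6 := hc3 x hx hnear
  have h7 : D.C * D.a ^ r ≤ |D.C| * D.a ^ r :=
    mul_le_mul_of_nonneg_right (le_abs_self _) (pow_nonneg D.a_nonneg r)
  calc ‖D.z (D.target i b) (S x) - peval (T.coef p i b) u'‖
      = ‖(D.z (D.target i b) (S x) - peval c u) + (peval c u - peval c u') +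
          (peval c u' - peval (T.coef p i b) u')‖ := by congr 1; abel
    _ ≤ ‖D.z (D.target i b) (S x) - peval c u‖ + ‖peval c u - peval c u'‖ +
          ‖peval c u' - peval (T.coef p i b) u'‖ := norm_add₃_le
    _ ≤ _ := by linarith

/-- Orbits are shadowed for `n` steps. -/
lemma iterate_le {T : Table d D.N D.Nb r Q} {p : ℕ} {q Λ ρ₀ η : ℝ} (hT : D.Approx T p q)
    (hq : 0 ≤ q) (hρ₀ : ∀ i b, ρ₀ ≤ D.rad i b)
    (hΛ : ∀ i b, |D.L| / (4 * D.rad i b) ≤ Λ) (hΛ2 : 2 ≤ Λ) {n : ℕ}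
    (hη : Λ ^ n * (3 * Λ * q + (r : ℝ) ^ d * q + |D.C| * D.a ^ r) ≤ η)
    (hsmall : η + 3 * q < ρ₀) {x : M} {i : Fin D.N} (hx : x ∈ D.U i) :
    ∀ t ≤ n, S^[t] x ∈ D.U ((T.step p)^[t] (i, D.z i x)).1 ∧
      ‖D.z ((T.step p)^[t] (i, D.z i x)).1 (S^[t] x) - ((T.step p)^[t] (i, D.z i x)).2‖ ≤ η := by
  set β := 3 * Λ * q + (r : ℝ) ^ d * q + |D.C| * D.a ^ r with hβdef
  have hβ : 0 ≤ β := by have := D.a_nonneg; positivity
  have hpow : ∀ t ≤ n, (Λ ^ t - 1) * β ≤ η := fun t ht => by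
    refine le_trans (mul_le_mul_of_nonneg_right ?_ hβ) hη
    linarith [pow_le_pow_right₀ (by linarith : (1 : ℝ) ≤ Λ) ht]
  suffices h : ∀ t ≤ n, S^[t] x ∈ D.U ((T.step p)^[t] (i, D.z i x)).1 ∧
      ‖D.z ((T.step p)^[t] (i, D.z i x)).1 (S^[t] x) - ((T.step p)^[t] (i, D.z i x)).2‖ ≤
        (Λ ^ t - 1) * β from
    fun t ht => ⟨(h t ht).1, (h t ht).2.trans (hpow t ht)⟩
  intro t
  induction t with
  | zero => exact fun _ => ⟨hx, by simp⟩
  | succ t ih =>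
    intro ht
    obtain ⟨h1, h2⟩ := ih (by omega)
    have he : 0 ≤ (Λ ^ t - 1) * β :=
      mul_nonneg (by linarith [one_le_pow₀ (n := t) (by linarith : (1 : ℝ) ≤ Λ)]) hβ
    obtain ⟨h3, h4⟩ := D.step_le hT hq he hρ₀ (by linarith [hpow t (by omega)]) hΛ h1 h2
    rw [Function.iterate_succ_apply', Function.iterate_succ_apply']
    refine ⟨h3, h4.trans ?_⟩
    have e : Λ * ((Λ ^ t - 1) * β + 3 * q) + (r : ℝ) ^ d * q + |D.C| * D.a ^ r
        = Λ * (Λ ^ t - 1) * β + β := by rw [hβdef]; ring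
    rw [e, pow_succ]
    nlinarith

end PolySystem

end Vale.Agent.P109
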